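import Vale.Agent.Lib.P160.Sparse4

namespace Vale.Agent.Lib.P160.H63

open Vale.Agent.Lib.P160

/-- The absolute constant of the logarithmic regime. -/
noncomputable def constL : ℝ := (64 / 3 : ℝ) ^ (2 ^ 41)

theorem one_le_constL : (1 : ℝ) ≤ constL := by
  unfold constL
  exact one_le_pow₀ (by norm_num)

/-- `y ≤ 2 ^ y` for positive real `y`. -/
theorem le_two_rpow {y : ℝ} (hy : 0 < y) : y ≤ (2 : ℝ) ^ y := by
  have h1 : y < (⌊y⌋₊ : ℝ) + 1 := Nat.lt_floor_add_one y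
  have h2 : ((⌊y⌋₊ : ℝ) + 1) ≤ (2 : ℝ) ^ ⌊y⌋₊ := by
    have h := Nat.lt_two_pow_self (n := ⌊y⌋₊)
    have h' : ⌊y⌋₊ + 1 ≤ 2 ^ ⌊y⌋₊ := h
    exact_mod_cast h'
  have h3 : (2 : ℝ) ^ (⌊y⌋₊ : ℝ) ≤ (2 : ℝ) ^ y :=
    Real.rpow_le_rpow_of_exponent_le (by norm_num) (Nat.floor_le hy.le)
  rw [Real.rpow_natCast] at h3
  linarith

/-- `logb 2 y ≤ y` for positive real `y`. -/
theorem logb_two_le {y : ℝ} (hy : 0 < y) : Real.logb 2 y ≤ y :=
  (Real.logb_le_iff_le_rpow (by norm_num) hy).mpr (le_two_rpow hy)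

/-- `(logb 2 n) ^ 2 ≤ 4 n` for a natural number `n ≥ 1`. -/
theorem logb_sq_le {n : ℕ} (hn : 1 ≤ n) : Real.logb 2 n ^ 2 ≤ 4 * (n : ℝ) := by
  have hn0 : (0 : ℝ) < n := by exact_mod_cast hn
  have hs : 0 < Real.sqrt (n : ℝ) := Real.sqrt_pos.mpr hn0
  have h1 : Real.logb 2 (Real.sqrt (n : ℝ)) = Real.logb 2 n / 2 := by
    unfold Real.logb
    rw [Real.log_sqrt hn0.le]
    ring
  have h2 : Real.logb 2 n / 2 ≤ Real.sqrt (n : ℝ) := by
    rw [← h1]
    exact logb_two_le hs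
  have h3 : 0 ≤ Real.logb 2 n := Real.logb_nonneg (by norm_num) (by exact_mod_cast hn)
  have h4 : Real.sqrt (n : ℝ) ^ 2 = n := Real.sq_sqrt hn0.le
  nlinarith

/-- `Lr s ^ 2 * s ≤ 1`. -/
theorem Lr_sq_mul_le (s : ℕ) : Lr s ^ 2 * (s : ℝ) ≤ 1 := by
  have h1 : Lr s ≤ Lr (2 * (s / 2)) := Lr_antitone (by omega)
  have h2 : (s : ℝ) ≤ 2 * ((s / 2 : ℕ) : ℝ) + 1 := by
    have h : s ≤ 2 * (s / 2) + 1 := by omega
    exact_mod_cast h
  have h3 := Lr_even_sq (s / 2)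
  have h4 : Lr s ^ 2 ≤ Lr (2 * (s / 2)) ^ 2 := pow_le_pow_left₀ (Lr_pos s).le h1 2
  have h5 : (0 : ℝ) ≤ (s : ℝ) := Nat.cast_nonneg s
  have h6 : (0 : ℝ) ≤ Lr (2 * (s / 2)) ^ 2 := by positivity
  calc Lr s ^ 2 * (s : ℝ) ≤ Lr (2 * (s / 2)) ^ 2 * (s : ℝ) :=
        mul_le_mul_of_nonneg_right h4 h5
    _ ≤ Lr (2 * (s / 2)) ^ 2 * (2 * ((s / 2 : ℕ) : ℝ) + 1) :=
        mul_le_mul_of_nonneg_left h2 h6
    _ ≤ 1 := h3

/-- From `40 n ≤ k * logb 2 n`: `2 ^ (40 n) ≤ n ^ k`. -/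
theorem two_pow_le_pow {n k : ℕ} (hn : 1 ≤ n)
    (hk : 40 * (n : ℝ) ≤ (k : ℝ) * Real.logb 2 n) :
    (2 : ℝ) ^ (40 * n) ≤ (n : ℝ) ^ k := by
  have hn0 : (0 : ℝ) < n := by exact_mod_cast hn
  have h1 : (2 : ℝ) ^ (Real.logb 2 n) = n :=
    Real.rpow_logb (by norm_num) (by norm_num) hn0
  have h2 : (n : ℝ) ^ k = (2 : ℝ) ^ (Real.logb 2 n * (k : ℝ)) := by
    rw [Real.rpow_mul_natCast (by norm_num), h1]
  have h3 : (2 : ℝ) ^ (40 * n) = (2 : ℝ) ^ (((40 * n : ℕ) : ℝ)) := by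
    rw [Real.rpow_natCast]
  rw [h2, h3]
  apply Real.rpow_le_rpow_of_exponent_le (by norm_num)
  push_cast
  linarith

theorem log_term_bound {n s r f : ℕ} (h3 : 3 ≤ s)
    (hk : 40 * (n : ℝ) ≤ ((n - s : ℕ) : ℝ) * Real.logb 2 n)
    (hr : r + 1 ≤ s) (hf : f + s + r = n) :
    min (Lr s ^ f) (Lr s ^ f * 2 ^ s / 2 ^ (Nat.choose (r + 1) 2)) ≤
      constL * (3 / 8) ^ n * ((1 / 8) ^ s * (1 / 8) ^ r) := by
  have hA1 : (1 : ℝ) ≤ constL := one_le_constL
  rw [← pow_add]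
  have e40 : (2 : ℕ) ^ 40 = 1099511627776 := by norm_num
  have e41 : (2 : ℕ) ^ 41 = 2199023255552 := by norm_num
  have hn1 : 1 ≤ n := by omega
  have hkn : n - s = f + r := by omega
  have hsrn : s + r ≤ n := by omega
  -- the tail shared by cases 1 and 3
  have htail : (3 / 64 : ℝ) ^ n ≤ constL * (3 / 8) ^ n * (1 / 8) ^ (s + r) := by
    have h2 : (1 / 8 : ℝ) ^ n ≤ (1 / 8) ^ (s + r) :=
      pow_le_pow_of_le_one (by norm_num) (by norm_num) hsrn
    have h3' : (3 / 64 : ℝ) ^ n = (3 / 8) ^ n * (1 / 8) ^ n := by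
      rw [← mul_pow]; norm_num
    calc (3 / 64 : ℝ) ^ n = (3 / 8) ^ n * (1 / 8) ^ n := h3'
      _ ≤ (3 / 8) ^ n * (1 / 8) ^ (s + r) := mul_le_mul_of_nonneg_left h2 (by positivity)
      _ = 1 * ((3 / 8) ^ n * (1 / 8) ^ (s + r)) := (one_mul _).symm
      _ ≤ constL * ((3 / 8) ^ n * (1 / 8) ^ (s + r)) :=
          mul_le_mul_of_nonneg_right hA1 (by positivity)
      _ = constL * (3 / 8) ^ n * (1 / 8) ^ (s + r) := by ring
  rcases le_or_gt s (2 ^ 40) with hs | hs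
  · -- Case 1: small s
    refine (min_le_left _ _).trans ?_
    have hpow : Lr s ^ f ≤ (3 / 8 : ℝ) ^ f :=
      pow_le_pow_left₀ (Lr_pos s).le (Lr_le_of_three_le h3) _
    have hn : (3 / 8 : ℝ) ^ n = (3 / 8) ^ f * (3 / 8) ^ (s + r) := by
      rw [← pow_add]; congr 1; omega
    have hx : (3 / 8 : ℝ) ^ (s + r) * (1 / 8) ^ (s + r) = 1 / (64 / 3) ^ (s + r) := by
      rw [← mul_pow, ← _root_.one_div_pow]
      congr 1
      norm_num
    have hsr : s + r ≤ 2 ^ 41 := by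
      rw [e41]; rw [e40] at hs; omega
    have hle : (64 / 3 : ℝ) ^ (s + r) ≤ constL := by
      unfold constL
      exact pow_le_pow_right₀ (by norm_num) hsr
    have hpos : (0 : ℝ) < (64 / 3) ^ (s + r) := by positivity
    have h1 : (1 : ℝ) ≤ constL * (1 / (64 / 3) ^ (s + r)) := by
      rw [mul_one_div, le_div_iff₀ hpos, one_mul]
      exact hle
    calc Lr s ^ f ≤ (3 / 8 : ℝ) ^ f := hpow
      _ = (3 / 8 : ℝ) ^ f * 1 := (mul_one _).symm
      _ ≤ (3 / 8 : ℝ) ^ f * (constL * (1 / (64 / 3) ^ (s + r))) :=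
          mul_le_mul_of_nonneg_left h1 (by positivity)
      _ = constL * (3 / 8) ^ n * (1 / 8) ^ (s + r) := by
          rw [hn, ← hx]; ring
  · rcases le_or_gt f r with hfr | hfr
    · -- Case 2: large s, f ≤ r
      refine (min_le_right _ _).trans ?_
      have hn0 : (0 : ℝ) < n := by exact_mod_cast hn1
      -- 100 n ≤ r ^ 2
      have hL2 := logb_sq_le hn1
      have hkr : ((n - s : ℕ) : ℝ) ≤ 2 * (r : ℝ) := by
        have h : n - s ≤ 2 * r := by omega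
        exact_mod_cast h
      have hk0 : (0 : ℝ) ≤ ((n - s : ℕ) : ℝ) := Nat.cast_nonneg _
      have hsq : (40 * (n : ℝ)) ^ 2 ≤ (((n - s : ℕ) : ℝ) * Real.logb 2 n) ^ 2 :=
        pow_le_pow_left₀ (by positivity) hk 2
      have hk2 : 400 * (n : ℝ) ≤ ((n - s : ℕ) : ℝ) ^ 2 := by
        have h1 : (((n - s : ℕ) : ℝ) * Real.logb 2 n) ^ 2
            ≤ ((n - s : ℕ) : ℝ) ^ 2 * (4 * (n : ℝ)) := by
          rw [mul_pow]
          exact mul_le_mul_of_nonneg_left hL2 (by positivity)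
        have h2 : (n : ℝ) * (400 * (n : ℝ)) ≤ (n : ℝ) * ((n - s : ℕ) : ℝ) ^ 2 := by
          nlinarith
        exact le_of_mul_le_mul_left h2 hn0
      have hr2 : 100 * (n : ℝ) ≤ (r : ℝ) ^ 2 := by
        have h1 : ((n - s : ℕ) : ℝ) ^ 2 ≤ (2 * (r : ℝ)) ^ 2 :=
          pow_le_pow_left₀ hk0 hkr 2
        nlinarith
      have hr2' : 100 * n ≤ r * r := by
        have h : ((100 * n : ℕ) : ℝ) ≤ ((r * r : ℕ) : ℝ) := by
          push_cast
          nlinarith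
        exact_mod_cast h
      have hch : 6 * n ≤ Nat.choose (r + 1) 2 := by
        rw [Nat.choose_two_right, Nat.le_div_iff_mul_le (by norm_num)]
        simp only [Nat.add_sub_cancel]
        nlinarith
      have hkey : (2 : ℝ) ^ (6 * n) ≤ constL * 2 ^ (Nat.choose (r + 1) 2) := by
        calc (2 : ℝ) ^ (6 * n) ≤ 2 ^ (Nat.choose (r + 1) 2) :=
              pow_le_pow_right₀ (by norm_num) hch
          _ = 1 * 2 ^ (Nat.choose (r + 1) 2) := (one_mul _).symm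
          _ ≤ constL * 2 ^ (Nat.choose (r + 1) 2) :=
              mul_le_mul_of_nonneg_right hA1 (by positivity)
      have hLr1 : Lr s ≤ 1 := (Lr_le_of_three_le h3).trans (by norm_num)
      have hpow1 : Lr s ^ f ≤ 1 := pow_le_one₀ (Lr_pos s).le hLr1
      have hC : (0 : ℝ) < 2 ^ (Nat.choose (r + 1) 2) := by positivity
      have hsn : s ≤ n := by omega
      have ha : (3 / 8 : ℝ) ^ n * (8 / 3) ^ n = 1 := by
        rw [← mul_pow]; norm_num
      have hb : (1 / 8 : ℝ) ^ (s + r) * 8 ^ (s + r) = 1 := by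
        rw [← mul_pow]; norm_num
      have h2s : (2 : ℝ) ^ s ≤ 2 ^ n := pow_le_pow_right₀ (by norm_num) hsn
      have h83 : (8 / 3 : ℝ) ^ n ≤ 2 ^ (2 * n) := by
        rw [pow_mul]
        exact pow_le_pow_left₀ (by norm_num) (by norm_num) n
      have h8 : (8 : ℝ) ^ (s + r) ≤ 2 ^ (3 * n) := by
        calc (8 : ℝ) ^ (s + r) ≤ 8 ^ n := pow_le_pow_right₀ (by norm_num) hsrn
          _ = 2 ^ (3 * n) := by rw [pow_mul]; norm_num
      have hsmall : (2 : ℝ) ^ s * (8 / 3) ^ n * 8 ^ (s + r) ≤ 2 ^ (6 * n) := by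
        have e : (2 : ℝ) ^ (6 * n) = 2 ^ n * 2 ^ (2 * n) * 2 ^ (3 * n) := by
          rw [← pow_add, ← pow_add]; congr 1; ring
        rw [e]
        exact mul_le_mul (mul_le_mul h2s h83 (by positivity) (by positivity)) h8
          (by positivity) (by positivity)
      have hab : (0 : ℝ) ≤ (3 / 8 : ℝ) ^ n * (1 / 8) ^ (s + r) := by positivity
      have hfin : (2 : ℝ) ^ s ≤
          constL * (3 / 8) ^ n * (1 / 8) ^ (s + r) * 2 ^ (Nat.choose (r + 1) 2) := by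
        have e : (2 : ℝ) ^ s =
            ((2 : ℝ) ^ s * (8 / 3) ^ n * 8 ^ (s + r)) * ((3 / 8 : ℝ) ^ n * (1 / 8) ^ (s + r)) := by
          have e' : ((2 : ℝ) ^ s * (8 / 3) ^ n * 8 ^ (s + r)) *
              ((3 / 8 : ℝ) ^ n * (1 / 8) ^ (s + r)) =
              2 ^ s * ((3 / 8 : ℝ) ^ n * (8 / 3) ^ n) * ((1 / 8 : ℝ) ^ (s + r) * 8 ^ (s + r)) := by
            ring
          rw [e', ha, hb]; ring
        calc (2 : ℝ) ^ s =
            ((2 : ℝ) ^ s * (8 / 3) ^ n * 8 ^ (s + r)) * ((3 / 8 : ℝ) ^ n * (1 / 8) ^ (s + r)) := e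
          _ ≤ 2 ^ (6 * n) * ((3 / 8 : ℝ) ^ n * (1 / 8) ^ (s + r)) :=
              mul_le_mul_of_nonneg_right hsmall hab
          _ ≤ (constL * 2 ^ (Nat.choose (r + 1) 2)) * ((3 / 8 : ℝ) ^ n * (1 / 8) ^ (s + r)) :=
              mul_le_mul_of_nonneg_right hkey hab
          _ = constL * (3 / 8) ^ n * (1 / 8) ^ (s + r) * 2 ^ (Nat.choose (r + 1) 2) := by ring
      calc Lr s ^ f * 2 ^ s / 2 ^ (Nat.choose (r + 1) 2)
          ≤ 1 * 2 ^ s / 2 ^ (Nat.choose (r + 1) 2) :=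
            div_le_div_of_nonneg_right (mul_le_mul_of_nonneg_right hpow1 (by positivity)) hC.le
        _ = 2 ^ s / 2 ^ (Nat.choose (r + 1) 2) := by rw [one_mul]
        _ ≤ constL * (3 / 8) ^ n * (1 / 8) ^ (s + r) := by
            rw [div_le_iff₀ hC]; exact hfin
    · -- Case 3: large s, r < f
      refine (min_le_left _ _).trans ?_
      have hs0 : (0 : ℝ) < s := by
        have : 0 < s := by omega
        exact_mod_cast this
      have hs1 : (1 : ℝ) ≤ s := by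
        have : 1 ≤ s := by omega
        exact_mod_cast this
      -- s ^ f ≥ 2 ^ (10 n)
      have hsf : (2 : ℝ) ^ (10 * n) ≤ (s : ℝ) ^ f := by
        rcases le_or_gt n (s * s) with hsq | hsq
        · -- s ^ 2 ≥ n
          have hK := two_pow_le_pow hn1 hk
          have h1 : (n : ℝ) ^ (n - s) ≤ ((s : ℝ) ^ 2) ^ (n - s) := by
            apply pow_le_pow_left₀ (Nat.cast_nonneg n)
            have : ((n : ℕ) : ℝ) ≤ ((s * s : ℕ) : ℝ) := by exact_mod_cast hsq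
            push_cast at this
            nlinarith
          have h2 : ((s : ℝ) ^ 2) ^ (n - s) ≤ (s : ℝ) ^ (4 * f) := by
            rw [← pow_mul]
            exact pow_le_pow_right₀ hs1 (by omega)
          have h4 : ((2 : ℝ) ^ (10 * n)) ^ 4 ≤ ((s : ℝ) ^ f) ^ 4 := by
            rw [← pow_mul, ← pow_mul]
            have e1 : 10 * n * 4 = 40 * n := by ring
            have e2 : f * 4 = 4 * f := by ring
            rw [e1, e2]
            exact hK.trans (h1.trans h2)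
          exact (pow_le_pow_iff_left₀ (by positivity) (by positivity) (by norm_num)).mp h4
        · -- s ^ 2 < n
          have h2s : 2 * s ≤ n := by
            by_contra hcon
            have hlt : n < 2 * s := not_le.mp hcon
            have : s * s < 2 * s := lt_trans hsq hlt
            nlinarith
          have hfn : 10 * n ≤ 40 * f := by omega
          have hb : (2 : ℝ) ^ 40 ≤ (s : ℝ) := by
            have : (2 : ℕ) ^ 40 ≤ s := hs.le
            exact_mod_cast this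
          calc (2 : ℝ) ^ (10 * n) ≤ (2 : ℝ) ^ (40 * f) :=
                pow_le_pow_right₀ (by norm_num) hfn
            _ = ((2 : ℝ) ^ 40) ^ f := by rw [pow_mul]
            _ ≤ (s : ℝ) ^ f := pow_le_pow_left₀ (by positivity) hb f
      -- (Lr s ^ f) ^ 2 ≤ ((3 / 64) ^ n) ^ 2
      have hF1 : Lr s ^ 2 ≤ 1 / (s : ℝ) := by
        rw [le_div_iff₀ hs0]
        exact Lr_sq_mul_le s
      have h1 : (Lr s ^ f) ^ 2 ≤ (1 / (s : ℝ)) ^ f := by
        rw [← pow_mul, mul_comm, pow_mul]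
        exact pow_le_pow_left₀ (by positivity) hF1 f
      have h2 : (1 / (s : ℝ)) ^ f ≤ 1 / (2 : ℝ) ^ (10 * n) := by
        rw [one_div_pow]
        exact one_div_le_one_div_of_le (by positivity) hsf
      have h3' : 1 / (2 : ℝ) ^ (10 * n) ≤ ((3 / 64 : ℝ) ^ n) ^ 2 := by
        have e : 1 / (2 : ℝ) ^ (10 * n) = (1 / 1024 : ℝ) ^ n := by
          rw [pow_mul, one_div_pow]; norm_num
        rw [e, ← pow_mul, mul_comm, pow_mul]
        exact pow_le_pow_left₀ (by norm_num) (by norm_num) n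
      have h4 : Lr s ^ f ≤ (3 / 64 : ℝ) ^ n := by
        have h5 : (Lr s ^ f) ^ 2 ≤ ((3 / 64 : ℝ) ^ n) ^ 2 := h1.trans (h2.trans h3')
        exact (pow_le_pow_iff_left₀ (pow_nonneg (Lr_pos s).le f) (by positivity)
          (by norm_num)).mp h5
      exact h4.trans htail

end Vale.Agent.Lib.P160.H63
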