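import Vale.Agent.Lib.P160.Closed
import Vale.Agent.Lib.P160.helper63.LogNum

namespace Vale.Agent.Lib.P160

/-- Numeric lemma of the level-set regime: both error terms are at most `(243/512)^n`. -/
theorem level_num : ∃ C : ℝ, ∀ (ε : ℝ) (n z : ℕ), 40 ≤ ε * Real.logb 2 (n : ℝ) →
    ε * (n : ℝ) ≤ (z : ℝ) → z ≤ n →
    (4 : ℝ) ^ n * Qr (z - z / 2) + (4 : ℝ) ^ n / 2 ^ (Nat.choose (z / 2 + 1) 2) ≤
      C * (243 / 512) ^ n := by
  refine ⟨2, ?_⟩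
  intro ε n z h40 hεz hzn
  have hn2 : 2 ≤ n := by
    by_contra hcon
    have h01 : n = 0 ∨ n = 1 := by omega
    rcases h01 with rfl | rfl
    · simp at h40
      linarith
    · simp at h40
      linarith
  have hn1 : 1 ≤ n := by omega
  have hn0 : (0 : ℝ) < n := by exact_mod_cast hn1
  have hn1' : (1 : ℝ) < n := by exact_mod_cast hn2
  obtain ⟨L, hL⟩ : ∃ L : ℝ, L = Real.logb 2 (n : ℝ) := ⟨_, rfl⟩
  rw [← hL] at h40
  have hLpos : 0 < L := by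
    rw [hL]
    exact Real.logb_pos (by norm_num) hn1'
  have hzn' : (z : ℝ) ≤ n := by exact_mod_cast hzn
  have hε1 : ε ≤ 1 := by
    by_contra hcon
    rw [not_le] at hcon
    nlinarith
  have hL40 : 40 ≤ L := by nlinarith
  have hkey : 40 * (n : ℝ) ≤ z * L := by
    have h1 : ε * n * L ≤ z * L := mul_le_mul_of_nonneg_right hεz hLpos.le
    have h2 : 40 * (n : ℝ) ≤ ε * L * n := mul_le_mul_of_nonneg_right h40 hn0.le
    nlinarith
  have hL2 : L ^ 2 ≤ 4 * (n : ℝ) := by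
    rw [hL]
    exact H63.logb_sq_le hn1
  have hz0 : (0 : ℝ) ≤ z := Nat.cast_nonneg z
  have hz2 : 400 * (n : ℝ) ≤ (z : ℝ) ^ 2 := by
    have hsq : (40 * (n : ℝ)) ^ 2 ≤ ((z : ℝ) * L) ^ 2 :=
      pow_le_pow_left₀ (by positivity) hkey 2
    have h1 : ((z : ℝ) * L) ^ 2 ≤ (z : ℝ) ^ 2 * (4 * (n : ℝ)) := by
      rw [mul_pow]
      exact mul_le_mul_of_nonneg_left hL2 (by positivity)
    have h2 : (n : ℝ) * (400 * (n : ℝ)) ≤ (n : ℝ) * (z : ℝ) ^ 2 := by nlinarith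
    exact le_of_mul_le_mul_left h2 hn0
  have hz2' : 400 * n ≤ z * z := by
    have h : ((400 * n : ℕ) : ℝ) ≤ ((z * z : ℕ) : ℝ) := by
      push_cast
      nlinarith
    exact_mod_cast h
  have hpos : (0 : ℝ) ≤ (243 / 512 : ℝ) ^ n := by positivity
  -- second summand
  have hK : 4 * n ≤ Nat.choose (z / 2 + 1) 2 := by
    rw [Nat.choose_two_right, Nat.le_div_iff_mul_le (by norm_num)]
    simp only [Nat.add_sub_cancel]
    have hk : z ≤ 2 * (z / 2) + 1 := by omega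
    have hk2 : z * z ≤ (2 * (z / 2) + 1) * (2 * (z / 2) + 1) := Nat.mul_le_mul hk hk
    nlinarith
  have hsecond : (4 : ℝ) ^ n / 2 ^ (Nat.choose (z / 2 + 1) 2) ≤ (243 / 512) ^ n := by
    have h1 : (2 : ℝ) ^ (4 * n) ≤ 2 ^ (Nat.choose (z / 2 + 1) 2) :=
      pow_le_pow_right₀ (by norm_num) hK
    have h2 : (4 : ℝ) ^ n / 2 ^ (Nat.choose (z / 2 + 1) 2) ≤ 4 ^ n / 2 ^ (4 * n) :=
      div_le_div_of_nonneg_left (by positivity) (by positivity) h1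
    have h3 : (4 : ℝ) ^ n / 2 ^ (4 * n) = (1 / 4) ^ n := by
      rw [pow_mul, ← div_pow]
      norm_num
    have h4 : (1 / 4 : ℝ) ^ n ≤ (243 / 512) ^ n :=
      pow_le_pow_left₀ (by norm_num) (by norm_num) n
    linarith
  -- first summand
  obtain ⟨t, ht⟩ : ∃ t : ℕ, t = z - z / 2 := ⟨_, rfl⟩
  rw [← ht]
  have htz : z ≤ 2 * t := by omega
  have htz' : (z : ℝ) ≤ 2 * (t : ℝ) := by exact_mod_cast htz
  have ht0 : (0 : ℝ) ≤ t := Nat.cast_nonneg t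
  obtain ⟨j, hj⟩ : ∃ j : ℕ, j = ⌈7 * L / 20⌉₊ := ⟨_, rfl⟩
  have hj1 : 7 * L / 20 ≤ j := by
    rw [hj]
    exact Nat.le_ceil _
  have hj2 : (j : ℝ) < 7 * L / 20 + 1 := by
    rw [hj]
    exact Nat.ceil_lt_add_one (by positivity)
  have htL : 20 * (n : ℝ) ≤ t * L := by nlinarith
  have hjt : 7 * (n : ℝ) ≤ j * t := by
    have h : 7 * L / 20 * t ≤ j * t := mul_le_mul_of_nonneg_right hj1 ht0
    nlinarith
  have h4j : (4 : ℝ) ^ j * L ≤ 8 * n := by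
    have hn_eq : (2 : ℝ) ^ L = n := by
      rw [hL]
      exact Real.rpow_logb (by norm_num) (by norm_num) hn0
    have h4 : (4 : ℝ) ^ j = (2 : ℝ) ^ ((2 * j : ℕ) : ℝ) := by
      rw [Real.rpow_natCast, pow_mul]
      norm_num
    have h5 : (2 : ℝ) ^ ((2 * j : ℕ) : ℝ) ≤ (2 : ℝ) ^ (7 * L / 10 + 2) := by
      apply Real.rpow_le_rpow_of_exponent_le (by norm_num)
      push_cast
      linarith
    have h6 : L ≤ 8 * (2 : ℝ) ^ (L / 8) := by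
      have h := H63.le_two_rpow (y := L / 8) (by positivity)
      linarith
    have h7 : (2 : ℝ) ^ (7 * L / 10 + 2) * (2 : ℝ) ^ (L / 8) = (2 : ℝ) ^ (7 * L / 10 + 2 + L / 8) :=
      (Real.rpow_add (by norm_num) _ _).symm
    have h8 : (2 : ℝ) ^ (7 * L / 10 + 2 + L / 8) ≤ (2 : ℝ) ^ L :=
      Real.rpow_le_rpow_of_exponent_le (by norm_num) (by linarith)
    have h9 : (0 : ℝ) ≤ (2 : ℝ) ^ (7 * L / 10 + 2) := by positivity
    calc (4 : ℝ) ^ j * L ≤ (2 : ℝ) ^ (7 * L / 10 + 2) * (8 * (2 : ℝ) ^ (L / 8)) := by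
          rw [h4]
          exact mul_le_mul h5 h6 hLpos.le h9
      _ = 8 * ((2 : ℝ) ^ (7 * L / 10 + 2) * (2 : ℝ) ^ (L / 8)) := by ring
      _ ≤ 8 * (2 : ℝ) ^ L := by
          rw [h7]
          exact mul_le_mul_of_nonneg_left h8 (by norm_num)
      _ = 8 * n := by rw [hn_eq]
  obtain ⟨w, hw⟩ : ∃ w : ℕ, w = 4 ^ j := ⟨_, rfl⟩
  have hwr : (w : ℝ) = (4 : ℝ) ^ j := by
    rw [hw]
    push_cast
    rfl
  have h2t : 2 * w ≤ t := by
    have h1 : (2 : ℝ) * w * L ≤ t * L := by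
      rw [hwr]
      nlinarith
    have h' : (2 : ℝ) * w ≤ t := le_of_mul_le_mul_right h1 hLpos
    exact_mod_cast h'
  have hLr : ∀ m, w ≤ m → Lr m * (2 : ℝ) ^ j ≤ 1 := by
    intro m hm
    have h1 := H63.Lr_sq_mul_le m
    have hm' : (4 : ℝ) ^ j ≤ m := by
      rw [← hwr]
      exact_mod_cast hm
    have e : ((2 : ℝ) ^ j) ^ 2 = (4 : ℝ) ^ j := by
      rw [← pow_mul, mul_comm, pow_mul]
      norm_num
    have h2 : (Lr m * (2 : ℝ) ^ j) ^ 2 ≤ 1 := by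
      rw [mul_pow, e]
      calc Lr m ^ 2 * (4 : ℝ) ^ j ≤ Lr m ^ 2 * (m : ℝ) :=
            mul_le_mul_of_nonneg_left hm' (by positivity)
        _ ≤ 1 := h1
    have h3 : 0 ≤ Lr m * (2 : ℝ) ^ j := mul_nonneg (Lr_pos m).le (by positivity)
    by_contra hcon
    rw [not_le] at hcon
    nlinarith
  have hQ := Qr_mul_pow_le (D := (2 : ℝ) ^ j) (one_le_pow₀ (by norm_num)) hLr t
  obtain ⟨u, hu⟩ : ∃ u : ℕ, u = t - w := ⟨_, rfl⟩
  have htu : t = w + u := by omega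
  have htu2 : t ≤ 2 * u := by omega
  have hA : (0 : ℝ) < ((2 : ℝ) ^ j) ^ w := by positivity
  have hQ' : Qr t * ((2 : ℝ) ^ j) ^ u ≤ 1 := by
    have e : ((2 : ℝ) ^ j) ^ t = ((2 : ℝ) ^ j) ^ w * ((2 : ℝ) ^ j) ^ u := by
      rw [← pow_add, htu]
    rw [e] at hQ
    have h1 : ((2 : ℝ) ^ j) ^ w * (Qr t * ((2 : ℝ) ^ j) ^ u) ≤ ((2 : ℝ) ^ j) ^ w * 1 := by
      linarith
    exact le_of_mul_le_mul_left h1 hA
  have hju : 7 * n ≤ 2 * (j * u) := by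
    have h1 : 7 * n ≤ j * t := by
      have h : ((7 * n : ℕ) : ℝ) ≤ ((j * t : ℕ) : ℝ) := by
        push_cast
        exact hjt
      exact_mod_cast h
    calc 7 * n ≤ j * t := h1
      _ ≤ j * (2 * u) := Nat.mul_le_mul_left j htu2
      _ = 2 * (j * u) := by ring
  have hB : ((2 : ℝ) ^ j) ^ u = (2 : ℝ) ^ (j * u) := (pow_mul _ _ _).symm
  have hq0 : 0 ≤ Qr t := (Qr_pos t).le
  have hfirst : (4 : ℝ) ^ n * Qr t ≤ (243 / 512) ^ n := by
    have hsq : ((4 : ℝ) ^ n * Qr t) ^ 2 ≤ ((243 / 512 : ℝ) ^ n) ^ 2 := by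
      have h1 : (Qr t) ^ 2 * (2 : ℝ) ^ (2 * (j * u)) ≤ 1 := by
        have h0 : 0 ≤ Qr t * (2 : ℝ) ^ (j * u) := mul_nonneg hq0 (by positivity)
        have hle : Qr t * (2 : ℝ) ^ (j * u) ≤ 1 := by
          rw [← hB]
          exact hQ'
        have h2 : (Qr t * (2 : ℝ) ^ (j * u)) ^ 2 ≤ 1 := pow_le_one₀ h0 hle
        have e : (Qr t * (2 : ℝ) ^ (j * u)) ^ 2 = (Qr t) ^ 2 * (2 : ℝ) ^ (2 * (j * u)) := by
          rw [mul_pow, ← pow_mul, mul_comm (j * u) 2]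
        rw [e] at h2
        exact h2
      have h2 : (2 : ℝ) ^ (7 * n) ≤ (2 : ℝ) ^ (2 * (j * u)) :=
        pow_le_pow_right₀ (by norm_num) hju
      have h3 : (Qr t) ^ 2 * (2 : ℝ) ^ (7 * n) ≤ 1 :=
        (mul_le_mul_of_nonneg_left h2 (by positivity)).trans h1
      have h4 : (Qr t) ^ 2 ≤ 1 / (2 : ℝ) ^ (7 * n) := by
        rw [le_div_iff₀ (by positivity)]
        exact h3
      have e1 : ((4 : ℝ) ^ n * Qr t) ^ 2 = (16 : ℝ) ^ n * (Qr t) ^ 2 := by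
        rw [mul_pow, ← pow_mul, mul_comm n 2, pow_mul]
        norm_num
      have e2 : (16 : ℝ) ^ n * (1 / (2 : ℝ) ^ (7 * n)) = (1 / 8 : ℝ) ^ n := by
        rw [pow_mul, mul_one_div, ← div_pow]
        norm_num
      have e3 : ((243 / 512 : ℝ) ^ 2) ^ n = ((243 / 512 : ℝ) ^ n) ^ 2 := by
        rw [← pow_mul, ← pow_mul, mul_comm]
      calc ((4 : ℝ) ^ n * Qr t) ^ 2 = (16 : ℝ) ^ n * (Qr t) ^ 2 := e1
        _ ≤ (16 : ℝ) ^ n * (1 / (2 : ℝ) ^ (7 * n)) :=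
            mul_le_mul_of_nonneg_left h4 (by positivity)
        _ = (1 / 8 : ℝ) ^ n := e2
        _ ≤ ((243 / 512 : ℝ) ^ 2) ^ n := pow_le_pow_left₀ (by norm_num) (by norm_num) n
        _ = ((243 / 512 : ℝ) ^ n) ^ 2 := e3
    exact (pow_le_pow_iff_left₀ (by positivity) (by positivity) (by norm_num)).mp hsq
  linarith

end Vale.Agent.Lib.P160
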